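import Vale.Agent.P249.Sub.Main
import Vale.Agent.P249.Sub.Levels
import Vale.Agent.P249.Sub.Sparsify

/-!
The dimension reduction in `L_p`, `1 < p < ∞`, with dimension `n ^ o(1)` at every distortion.
-/

namespace Vale.Agent.Results.P249.Subpolynomial

universe u

/-- For every finite `p > 1` and `D > 1`, `n` points of `L_p` embed with distortion `D` in
dimension `exp (C (log n) ^ θ)`, `θ < 1`, hence in dimension `o(n)`. -/
theorem result : Vale.Agent.P249.SubpolynomialDim.{u} :=
  Vale.Agent.P249.Sub.subpolynomialDim_of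
    (fun _ _ h1 h2 h3 => Vale.Agent.P249.Sub.intensitySpec h1 h2 h3)
    (fun _ hq => Vale.Agent.P249.Sub.levelsSpec hq)
    (fun _ hq => Vale.Agent.P249.Sub.sparsifySpec hq)

end Vale.Agent.Results.P249.Subpolynomial
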