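import Mathlib
import Vale.Agent.P249.Lower.Main

/-!
For every `p > 2` and every distortion `D`, some `n`-point subsets of `L_p` need dimension at
least a constant times `(log n / log log n)^(p/2)`, even for nonlinear maps.
-/

open MeasureTheory
open scoped ENNReal

namespace Vale.Agent.Results.P249.SuperlogLower

/-- For `2 < p < ∞` and `D ≥ 1` there is `c > 0` such that for each `n ≥ 2` some `n` distinct
points of some `L_p(μ)` admit no map of distortion `D` into `ℓ_p^d` unless
`d ≥ c (log n / log (log n + 3))^(p/2)`. -/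
theorem result (P : ℝ≥0∞) [Fact (1 ≤ P)] (hP2 : 2 < P) (hP : P ≠ ⊤) (D : ℝ) (hD : 1 ≤ D) :
    ∃ c : ℝ, 0 < c ∧ ∀ n : ℕ, 2 ≤ n →
      ∃ (Ω : Type) (m : MeasurableSpace Ω) (μ : @Measure Ω m) (X : Fin n → Lp ℝ P μ),
        Function.Injective X ∧ ∀ (d : ℕ) (f : Fin n → PiLp P (fun _ : Fin d => ℝ)) (s : ℝ), 0 < s →
          (∀ i j, s * dist (X i) (X j) ≤ dist (f i) (f j) ∧
            dist (f i) (f j) ≤ D * s * dist (X i) (X j)) →
          c * (Real.log n / Real.log (Real.log n + 3)) ^ (P.toReal / 2) ≤ d :=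
  Vale.Agent.P249.Lower.lower_bound P hP2 hP D hD

end Vale.Agent.Results.P249.SuperlogLower
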